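import Vale.Agent.P317.Machine
import Vale.Agent.P317.Model

/-!
P317: the program.
Arrays: 0 n, 1-4 input, 5 numerator, 6 denominator, 7 k, 8 l, 9 L, 10 P, 11 h, 12 2b, 13 D, 14 T,
15 K, 16 K1, 17 4K, 18 rank, 19 3n, 20 L+3, 21 exponents, 22 part table, 23 state, 24 membership,
25 greedy basis, 26 class counters, 27 c0, 28 c1, 29 p, 30 i, 31 j, 32 y, 33 r, 34 scratch,
35 loop index, 36 weight, 37 old weight, 38 ok, 39 answer, 40 counter, 41 power, 42 43 old values,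
44 off count, 45 last off position, 46 accumulator, 47 down counter, 48 b.
-/

namespace Vale.Agent.P317
open Finset

def V (a : ℕ) : Expr := .get a (.lit 0)
def asg (a : ℕ) (e : Expr) : Prog := .set a (.lit 0) e
def skip : Prog := asg 34 (.lit 0)
def inc (a : ℕ) : Prog := asg a (.add (V a) (.lit 1))
/-- Nonzero iff `a < b`. -/
def ltE (a b : Expr) : Expr := .sub b a
/-- Nonzero iff `a ≠ b`. -/
def neE (a b : Expr) : Expr := .add (.sub a b) (.sub b a)
/-- For index (array 35) from 0 to (array k) - 1. -/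
def forN (k : ℕ) (body : Prog) : Prog :=
  .seq (asg 35 (.lit 0)) (.loop (V k) (.lit 1) (.seq body (inc 35)))
/-- Uniform random number with (array k) bits. -/
def rnd (x k : ℕ) : Prog :=
  .seq (asg x (.lit 0))
    (.loop (V k) (.lit 1) (.seq (.coin 34 (.lit 0)) (asg x (.add (.add (V x) (V x)) (V 34)))))
/-- Multiply by two to the power (array k). -/
def dbl (x k : ℕ) : Prog := .loop (V k) (.lit 1) (asg x (.add (V x) (V x)))
def rep (p : Prog) : ℕ → Prog
  | 0 => skip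
  | j + 1 => .seq p (rep p j)
/-- Set `x` to `c * P ^ j`. -/
def pw (x c j : ℕ) : Prog := .seq (asg x (.lit c)) (rep (dbl x 9) j)
/-- Multiply `x` by `min e (4 K)`. -/
def mul (x : ℕ) (e : Expr) : Prog :=
  .seq (asg 40 e) (.seq (asg 46 (.lit 0))
    (.seq (.loop (V 17) (V 40) (.seq (asg 46 (.add (V 46) (V x))) (asg 40 (.sub (V 40) (.lit 1)))))
      (asg x (V 46))))

/-- The state at the loop index. -/
def sI : Expr := .get 23 (V 35)
def n2 : Expr := .add (V 0) (V 0)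

def wgt : Prog :=
  .seq (asg 36 (.lit 0)) (forN 0 (.seq (asg 36 (.add (V 36) (.get 21 sI)))
    (.ite (neE (.get 22 sI) (V 35)) skip (asg 36 (.add (V 36) (V 11))))))

def greedy : Prog :=
  .seq (forN 0 (.set 25 (V 35) (.lit 0))) (.seq (asg 40 (.lit 0))
    (forN 0 (.ite (.get 24 (.add (V 0) (V 35))) skip
      (.seq (.set 25 (V 35) (.lit 1)) (.seq (.ask true 25 39 (.lit 0))
        (.ite (V 39) (inc 40) (.set 25 (V 35) (.lit 0))))))))

def indep : Prog :=
  .seq (forN 19 (.set 24 (V 35) (.lit 0))) (.seq (asg 38 (.lit 1))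
    (.seq (forN 0 (.seq (.ite (.get 24 sI) (asg 38 (.lit 0)) skip) (.set 24 sI (.lit 1))))
      (.seq (.ask false 24 39 (.lit 0)) (.seq (.ite (V 39) skip (asg 38 (.lit 0)))
        (.seq greedy (.ite (neE (V 40) (V 18)) (asg 38 (.lit 0)) skip))))))

def tryMove : Prog :=
  .seq wgt (.seq (asg 37 (V 36)) (.seq (asg 42 (.get 23 (V 30))) (.seq (asg 43 (.get 23 (V 31)))
    (.seq (.set 23 (V 30) (V 43)) (.seq (.set 23 (V 31) (V 32)) (.seq wgt (.seq indep
      (.seq (asg 47 (.sub (V 13) (.sub (V 37) (V 36)))) (.seq (asg 41 (.lit 1))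
        (.seq (.loop (V 13) (V 47)
            (.seq (asg 41 (.add (V 41) (V 41))) (asg 47 (.sub (V 47) (.lit 1)))))
          (.seq (.ite (ltE (V 33) (V 41)) skip (asg 38 (.lit 0)))
            (.ite (V 38) skip (.seq (.set 23 (V 31) (V 43)) (.set 23 (V 30) (V 42)))))))))))))))

def stepDet : Prog :=
  .ite (ltE (V 30) (V 0)) (.ite (ltE (V 31) (V 0)) (.ite (ltE (V 32) (V 19)) tryMove skip) skip)
    skip

def step : Prog :=
  .seq (rnd 30 9) (.seq (rnd 31 9) (.seq (rnd 32 20) (.seq (rnd 33 13) stepDet)))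

def reset : Prog := forN 0 (.set 23 (V 35) (.add n2 (V 35)))

def classify : Prog :=
  .seq (asg 44 (.lit 0))
    (.seq (forN 0 (.ite (neE (.get 22 sI) (V 35)) (.seq (inc 44) (asg 45 (V 35))) skip))
      (.ite (V 44)
        (.ite (.sub (V 44) (.lit 1)) skip (.set 26 (V 45) (.add (.get 26 (V 45)) (.lit 1))))
        (.seq (inc 27) (.ite (ltE (.get 23 (V 29)) n2) (inc 28) skip))))

def sample : Prog := .seq reset (.seq (.loop (V 14) (.lit 1) step) classify)

def clearC : Prog :=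
  .seq (asg 27 (.lit 0)) (.seq (asg 28 (.lit 0)) (forN 0 (.set 26 (V 35) (.lit 0))))

def add2 (i : Expr) : Prog := .set 21 i (.add (.get 21 i) (.lit 2))

def updateP : Prog :=
  .seq (forN 0 (.ite (ltE (.get 26 (V 35)) (V 16)) skip
      (.seq (add2 (V 35)) (.seq (add2 (.add (V 0) (V 35))) (add2 (.add n2 (V 35)))))))
    (.seq (.set 21 (.add n2 (V 29)) (.sub (.get 21 (.add n2 (V 29))) (.lit 1)))
      (.seq (mul 5 (.add (V 27) (V 28))) (mul 6 (.add (V 27) (V 27)))))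

def stage : Prog := .seq clearC (.seq (.loop (V 15) (.lit 1) sample) updateP)

def outer : Prog := .seq (.loop (V 12) (.lit 1) stage) (inc 29)

def initP : Prog :=
  .seq (forN 0 (.seq (.set 22 (V 35) (V 35)) (.seq (.set 22 (.add (V 0) (V 35)) (V 35))
      (.seq (.set 22 (.add n2 (V 35)) (V 35)) (.seq (.set 21 (V 35) (V 48))
        (.seq (.set 21 (.add (V 0) (V 35)) (V 48)) (.set 21 (.add n2 (V 35)) (V 12))))))))
    (.seq greedy (.seq (asg 18 (V 40)) (.seq (asg 5 (.lit 1))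
      (.seq (.loop (V 0) (.lit 1) (dbl 5 48)) (.seq (asg 6 (.lit 1)) (asg 29 (.lit 0)))))))

def finish : Prog := .ite (ltE (.add (V 5) (V 5)) (V 6)) (asg 5 (.lit 0)) skip

def phase2 : Prog := .seq initP (.seq (.loop (V 0) (.lit 1) outer) finish)

def phase1 : Prog :=
  .seq (asg 48 (.add (V 10) (V 10))) (.seq (asg 12 (.add (V 48) (V 48)))
    (.seq (asg 11 (.add (V 9) (.add (V 9) (V 9)))) (.seq (asg 20 (.add (V 9) (.lit 3)))
      (.seq (asg 19 (.add n2 (V 0))) (.seq (pw 13 1 4) (.seq (pw 14 1 21) (.seq (pw 15 1 14)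
        (.seq (pw 16 32 12) (pw 17 4 14)))))))))

def findK : Prog :=
  .seq (asg 7 (.lit 0)) (.seq (asg 46 (.lit 0))
    (.loop (V 2) (ltE (V 46) (V 2)) (.seq (asg 46 (.add (V 46) (V 1))) (inc 7))))

def findL : Prog :=
  .seq (asg 8 (.lit 0)) (.seq (asg 46 (V 3))
    (.loop (V 4) (ltE (V 46) (V 4)) (.seq (asg 46 (.add (V 46) (V 46))) (inc 8))))

def findP : Prog :=
  .seq (asg 47 (.add (.add (V 0) (V 7)) (.add (V 8) (.lit 2048)))) (.seq (asg 9 (.lit 0))
    (.seq (asg 10 (.lit 1))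
      (.loop (V 47) (ltE (V 10) (V 47)) (.seq (asg 10 (.add (V 10) (V 10))) (inc 9)))))

def phase0 : Prog := .seq findK (.seq findL findP)

def fpras : Prog := .seq phase0 (.seq phase1 phase2)

/-! Representation relations. -/

variable {n : ℕ}

def enc (y : XX n) : ℕ := y.1.val * n + y.2.val

/-- The parameters set by phases 0 and 1. -/
structure Par0 (n L : ℕ) (m : Mem) : Prop where
  r0 : m 0 0 = n
  r9 : m 9 0 = L
  r11 : m 11 0 = pH L
  r12 : m 12 0 = 2 * pB L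
  r13 : m 13 0 = pD L
  r14 : m 14 0 = pT L
  r15 : m 15 0 = pK L
  r16 : m 16 0 = pK1 L
  r17 : m 17 0 = 4 * pK L
  r19 : m 19 0 = 3 * n
  r20 : m 20 0 = L + 3
  r48 : m 48 0 = pB L
  hn : n ≤ 2 ^ L

structure Par (M₂ : Matroid (Fin n)) (L : ℕ) (m : Mem) : Prop extends Par0 n L m where
  r18 : ((m 18 0 : ℕ) : ℕ∞) = M₂.eRank
  part : ∀ y : XX n, m 22 (enc y) = y.2.val

def RW (w : XX n → ℕ) (m : Mem) : Prop := ∀ y : XX n, m 21 (enc y) = w y
def RS (σ : Fin n → XX n) (m : Mem) : Prop := ∀ j : Fin n, m 23 j.val = enc (σ j)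
def RC (c : Cnt n) (m : Mem) : Prop :=
  m 27 0 = c.c0 ∧ m 28 0 = c.c1 ∧ ∀ j : Fin n, m 26 j.val = c.cn j
def RSt (s : St n) (m : Mem) : Prop := RW s.w m ∧ m 5 0 = s.num ∧ m 6 0 = s.den

theorem Par0.agree {L : ℕ} {m m' : Mem} {W : List ℕ} (h : Par0 n L m) (ha : Agree W m m')
    (hW : ∀ a ∈ [0, 9, 11, 12, 13, 14, 15, 16, 17, 19, 20, 48], a ∉ W) : Par0 n L m' := by
  have e : ∀ a ∈ [0, 9, 11, 12, 13, 14, 15, 16, 17, 19, 20, 48], m' a = m a :=
    fun a h => ha a (hW a h)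
  obtain ⟨a0, a9, a11, a12, a13, a14, a15, a16, a17, a19, a20, a48, hn⟩ := h
  refine ⟨?_, ?_, ?_, ?_, ?_, ?_, ?_, ?_, ?_, ?_, ?_, ?_, hn⟩ <;>
    (rw [e _ (by simp)]; assumption)

theorem Par.agree {M₂ : Matroid (Fin n)} {L : ℕ} {m m' : Mem} {W : List ℕ} (h : Par M₂ L m)
    (ha : Agree W m m')
    (hW : ∀ a ∈ [0, 9, 11, 12, 13, 14, 15, 16, 17, 19, 20, 48, 18, 22], a ∉ W) : Par M₂ L m' := by
  refine ⟨h.toPar0.agree ha (fun a h => hW a (by simp at h ⊢; omega)), ?_, ?_⟩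
  · rw [ha 18 (hW 18 (by simp))]; exact h.r18
  · rw [ha 22 (hW 22 (by simp))]; exact h.part

/-- Invariant rule for `forN`; the invariant must not depend on arrays 35 (stated as stability). -/
theorem forN_inv (O : Bool → Set (Fin n) → Prop) (k : ℕ) (body : Prog) (N : ℕ)
    (I : ℕ → Mem → Prop) (m : Mem) (hk : m k 0 = N) (hk35 : k ≠ 35) (h35 : 35 ∉ body.wr)
    (hst : ∀ i m x, I i m → I i (m.put 35 0 x))
    (h : ∀ i < N, ∀ m, m 35 0 = i → I i m → I (i + 1) (exec O body m)) (h0 : I 0 m) :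
    I N (exec O (forN k body) m) := by
  have := execLoop_inv (exec O (.seq body (inc 35))) (fun i m => m 35 0 = i ∧ I i m) N
    (by
      intro i hi m ⟨h1, h2⟩
      have h3 : exec O body m 35 0 = i := by rw [exec_frame O body m 35 h35]; exact h1
      refine ⟨?_, ?_⟩
      · simp [exec, inc, asg, V, Expr.val, h3]
      · simp only [exec, inc, asg]
        exact hst _ _ _ (h i hi m h1 h2))
    (m.put 35 0 0) ⟨by simp, hst _ _ _ h0⟩
  simp only [forN, exec, asg, V, Expr.val]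
  rw [Mem.put_apply, if_neg (by simp [hk35]), hk]
  exact this.2

end Vale.Agent.P317
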